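import Vale.Agent.P025.R2.H851.Glue
import Vale.Agent.P025.R2.H722.LevCFF
import Vale.Agent.P025.R2.H816.Nsu1
import Vale.Agent.P025.R2.H720.Ret
import Vale.Agent.P025.R2.H833.Root
import Vale.Agent.P025.R2.H833.Uc2
import Vale.Agent.P025.R2.H109.UPow

/-!
# P025, A-DIV (helper851): (A2.1) and (A2.2) from statement (III)
-/

open TensorProduct Vale.Agent.P019P P025H373 P025H492 P025H544 P025H628 P025H720 P025H816

universe u v w

namespace P025H851

section transfer

variable {C : Type u} [NontriviallyNormedField C] [IsUltrametricDist C] [CompleteSpace C]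
  [IsAlgClosed C]

/-- transfer from radius `‖c‖` of `T` to an edge where `|T| ≤ ‖c‖` -/
theorem pow_of_tensor_r {κ : Type v} [Field κ] [Algebra (F0 C) κ]
    [Algebra.IsAlgebraic (F0 C) κ] {N : Type w} [Field N] [Algebra (RatFunc C) N] (f : N →+* κ)
    (hf : ∀ a : C, f (algebraMap (RatFunc C) N (RatFunc.C a)) =
      algebraMap (F0 C) κ (algebraMap C (F0 C) a)) (c : Cˣ)
    (hT : spectralNorm (F0 C) κ (f (algebraMap (RatFunc C) N RatFunc.X)) ≤ ‖(c : C)‖)
    {q : ℕ} {h : N} {z : F1r C c ⊗[RatFunc C] N} (hz : z ^ q = (1 : F1r C c) ⊗ₜ h) :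
    ∃ y : κ, y ^ q = f h := by
  let sc : RatFunc C →+* RatFunc C :=
    (scale ((c⁻¹ : Cˣ) : C) (c⁻¹).ne_zero : RatFunc C ≃ₐ[C] RatFunc C).toRingEquiv.toRingHom
  have hsc : ∀ r, sc (scale (c : C) c.ne_zero r) = r := by
    intro r
    change scale ((c⁻¹ : Cˣ) : C) (c⁻¹).ne_zero (scale (c : C) c.ne_zero r) = r
    rw [scale_scale]
    have h1 : ∀ (d : Cˣ) (_ : d = 1), scale (d : C) d.ne_zero r = r := by
      rintro d rfl
      have h2 : (scale ((1 : Cˣ) : C) (1 : Cˣ).ne_zero : RatFunc C ≃ₐ[C] RatFunc C).toAlgHom =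
          AlgHom.id C (RatFunc C) := by
        apply ratFunc_ext
        simp
      exact DFunLike.congr_fun h2 r
    exact h1 _ (mul_inv_cancel c)
  have hsX : sc RatFunc.X = RatFunc.C ((c⁻¹ : Cˣ) : C) * RatFunc.X := scale_X _ _
  have hsC : ∀ a : C, sc (RatFunc.C a) = RatFunc.C a := by
    intro a
    exact (scale ((c⁻¹ : Cˣ) : C) (c⁻¹).ne_zero).commutes a
  let r : RatFunc C →+* κ := (f.comp (algebraMap (RatFunc C) N)).comp sc
  have hr : ∀ a : C, r (RatFunc.C a) = algebraMap (F0 C) κ (algebraMap C (F0 C) a) := by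
    intro a
    change f (algebraMap (RatFunc C) N (sc (RatFunc.C a))) = _
    rw [hsC, hf]
  have hT' : spectralNorm (F0 C) κ (r RatFunc.X) ≤ 1 := by
    change spectralNorm (F0 C) κ (f (algebraMap (RatFunc C) N (sc RatFunc.X))) ≤ 1
    have hmul : ∀ a b : κ, spectralNorm (F0 C) κ (a * b) =
        spectralNorm (F0 C) κ a * spectralNorm (F0 C) κ b := by
      intro a b
      let nf : NormedField κ := spectralNorm.normedField (F0 C) κ
      exact norm_mul a b
    rw [hsX, map_mul, map_mul, hf, hmul, spectralNorm_extends, norm_algebraMap_C,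
      Units.val_inv_eq_inv_val, norm_inv]
    exact inv_mul_le_one_of_le₀ hT (norm_nonneg _)
  obtain ⟨φ, h1, -⟩ := P025H359.exists_eval_alg r hr hT'
  let _ : Algebra (RatFunc C) κ := (f.comp (algebraMap (RatFunc C) N)).toAlgebra
  let φ' : F1r C c →ₐ[RatFunc C] κ :=
    { (φ : F1r C c →+* κ) with
      commutes' := fun s => by
        change φ (algebraMap (RatFunc C) (F1 C) (scale (c : C) c.ne_zero s)) =
          f (algebraMap (RatFunc C) N s)
        rw [h1]
        change f (algebraMap (RatFunc C) N (sc (scale (c : C) c.ne_zero s))) = _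
        rw [hsc] }
  let f' : N →ₐ[RatFunc C] κ := { f with commutes' := fun r => rfl }
  let Φ : F1r C c ⊗[RatFunc C] N →ₐ[RatFunc C] κ :=
    Algebra.TensorProduct.lift φ' f' (fun _ _ => Commute.all _ _)
  refine ⟨Φ z, ?_⟩
  rw [← map_pow, hz, Algebra.TensorProduct.lift_tmul, map_one, one_mul]
  rfl

end transfer

section III

variable (C : Type u) [NontriviallyNormedField C] [IsUltrametricDist C] [CompleteSpace C]
  [IsAlgClosed C]

/-- the conclusion of (III): for all large radii `‖c‖`, `h` becomes a `q`-th power on `|T| ≤ ‖c‖`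
in a finite Galois solvable everywhere unramified extension. -/
def RootIII (K : Type v) [Field K] [Algebra C K] [Algebra (RatFunc C) K]
    (q : ℕ) (h : K) : Prop :=
  ∃ r0 : ℝ, ∀ c : Cˣ, r0 ≤ ‖(c : C)‖ →
    ∃ (M : Type v) (_ : Field M) (_ : Algebra C M) (_ : Algebra (RatFunc C) M) (_ : Algebra K M)
      (_ : IsScalarTower C K M) (_ : IsScalarTower (RatFunc C) K M) (_ : IsSU C K M),
      ∃ s : F1r C c ⊗[RatFunc C] M, s ^ q = (1 : F1r C c) ⊗ₜ algebraMap K M h

/-- statement (III) for all function fields over `C` of genus `≥ 2` -/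
def StmtIII : Prop :=
  ∀ (K : Type v) [Field K] [Algebra C K] [CFF C K] [Algebra (RatFunc C) K]
    [IsScalarTower C (RatFunc C) K] [FiniteDimensional (RatFunc C) K], 2 ≤ gen C K →
    ∀ q : ℕ, IsPrimePow q → ∀ h : K, h ≠ 0 →
      (∀ P : Plk C K, 0 ≤ ord P (algebraMap (RatFunc C) K RatFunc.X) → (q : ℤ) ∣ ord P h) →
      RootIII C K q h

end III

/-- `N` has finite levels of genus `≥ 2` containing any finite set -/
def BigLevels (kb N : Type*) [Field kb] [Field N] [Algebra kb N] : Prop :=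
  ∀ t : Finset N, ∃ (s : Finset N) (_ : CFF kb (IntermediateField.adjoin kb (s : Set N))),
    t ⊆ s ∧ 2 ≤ gen kb (IntermediateField.adjoin kb (s : Set N))

section A21

variable {C kb N : Type u}
  [NontriviallyNormedField C] [IsUltrametricDist C] [CompleteSpace C] [IsAlgClosed C] [CharZero C]
  [Field kb] [IsAlgClosed kb] [CharZero kb] [Field N] [Algebra kb C] [Algebra kb N]
  [TrdegOne kb N]

/-- finite sets generating a level inside the level -/
theorem exists_gens (s : Finset N) : ∃ s' : Finset (IntermediateField.adjoin kb (s : Set N)),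
    IntermediateField.adjoin kb (s' : Set (IntermediateField.adjoin kb (s : Set N))) = ⊤ := by
  classical
  let L : IntermediateField kb N := IntermediateField.adjoin kb (s : Set N)
  have hsub : (s : Set N) ⊆ L := IntermediateField.subset_adjoin _ _
  let s' : Finset L := s.attach.image (fun x => (⟨x.1, hsub x.2⟩ : L))
  refine ⟨s', ?_⟩
  have h1 : (s' : Set L) = L.val ⁻¹' (s : Set N) := by
    ext x
    rw [Finset.mem_coe, Finset.mem_image]
    constructor
    · rintro ⟨y, -, rfl⟩
      exact y.2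
    · intro hx
      exact ⟨⟨x.1, hx⟩, Finset.mem_attach _ _, rfl⟩
  have h2 : IntermediateField.map L.val (IntermediateField.adjoin kb (s' : Set L)) =
      IntermediateField.map L.val ⊤ := by
    rw [IntermediateField.adjoin_map]
    have h3 : L.val '' (s' : Set L) = (s : Set N) := by
      rw [h1, Set.image_preimage_eq_inter_range, Set.inter_eq_left]
      intro x hx
      exact ⟨⟨x, hsub hx⟩, rfl⟩
    rw [h3]
    apply le_antisymm
    · intro x hx
      exact ⟨⟨x, hx⟩, trivial, rfl⟩
    · rintro _ ⟨y, -, rfl⟩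
      exact y.2
  exact IntermediateField.map_injective L.val h2

/-- the genus of `NC C kb L` -/
theorem gen_NC {L : Type u} [Field L] [Algebra kb L] [CFF kb L] [CFF C (NC C kb L)] :
    gen C (NC C kb L) = gen kb L :=
  (P025H722.isBC_NC C kb L).to816.gen_eq

/-- (III) descended to `NC C kb N` -/
theorem exists_F1r_root (hIII : StmtIII.{u, u} C) (hN : P025H833.KumMax kb N)
    (T2 : N) [hT2 : Fact (Transcendental kb T2)] (h : N) (hh : h ≠ 0)
    {q : ℕ} (hq : IsPrimePow q) (L : IntermediateField kb N) [CFF kb L] (hg : 2 ≤ gen kb L)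
    (s : Finset L) (hs : IntermediateField.adjoin kb (s : Set L) = ⊤) (hTL : T2 ∈ L)
    (hhL : h ∈ L)
    (hord : ∀ (P : Plk C (NC C kb L)), (0 ≤ @ord C (NC C kb L) _ _ _ (P025H722.cff_NC C kb L) P
        (algebraMap L (NC C kb L) ⟨T2, hTL⟩)) →
      (q : ℤ) ∣ @ord C (NC C kb L) _ _ _ (P025H722.cff_NC C kb L) P
        (algebraMap L (NC C kb L) ⟨h, hhL⟩)) :
    ∃ r0 : ℝ, ∀ c : Cˣ, r0 ≤ ‖(c : C)‖ →
      ∃ y : F1r C c ⊗[RatFunc C] NCT C kb N T2,
        y ^ q = (1 : F1r C c) ⊗ₜ algebraMap N (NCT C kb N T2) h := by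
  let TL : L := ⟨T2, hTL⟩
  let hL : L := ⟨h, hhL⟩
  have hTLe : L.val TL = T2 := rfl
  haveI : Fact (Transcendental kb TL) := P025H722.fact_transcendental L.val TL hTLe
  haveI : TrdegOne kb L := P025H722.trdegOne_of_algHom L.val
  haveI : CFF C (NCT C kb L TL) := P025H722.cff_NCT C kb L TL
  haveI : FiniteDimensional (RatFunc C) (NCT C kb L TL) := P025H722.finite_NCT C kb L TL s hs
  have hgK : 2 ≤ gen C (NCT C kb L TL) := by
    haveI : CFF C (NC C kb L) := P025H722.cff_NC C kb L
    have h1 : gen C (NC C kb L) = gen kb L := gen_NC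
    have h2 : 2 ≤ gen C (NC C kb L) := by rw [h1]; exact hg
    exact h2
  have hK0 : algebraMap L (NCT C kb L TL) hL ≠ 0 := by
    rw [Ne, map_eq_zero]
    intro h0
    exact hh (congrArg Subtype.val h0)
  obtain ⟨r0, hr0⟩ := hIII (NCT C kb L TL) hgK q hq (algebraMap L (NCT C kb L TL) hL) hK0 (by
    intro P hP
    rw [algebraMap_T_X] at hP
    exact hord P hP)
  refine ⟨r0, fun c hc => ?_⟩
  obtain ⟨M, _, _, _, _, _, _, hSU, s0, hs0⟩ := hr0 c hc
  let ψ : NCT C kb L TL →ₐ[RatFunc C] NCT C kb N T2 := P025H722.nctMap C L.val TL T2 hTLe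
  letI : Algebra (NCT C kb L TL) (NCT C kb N T2) := ψ.toRingHom.toAlgebra
  haveI : IsScalarTower (RatFunc C) (NCT C kb L TL) (NCT C kb N T2) :=
    IsScalarTower.of_algebraMap_eq fun r => (ψ.commutes r).symm
  haveI : IsScalarTower C (NCT C kb L TL) (NCT C kb N T2) :=
    IsScalarTower.of_algebraMap_eq fun a => (P025H722.ncMap_C C L.val a).symm
  have hKC : KumClosed C (NCT C kb L TL) (NCT C kb N T2) := by
    letI : Algebra (NCT C kb L TL) (NC C kb N) := ψ.toRingHom.toAlgebra
    haveI : IsScalarTower C (NCT C kb L TL) (NC C kb N) :=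
      IsScalarTower.of_algebraMap_eq fun a => (P025H722.ncMap_C C L.val a).symm
    exact P025H833.kumClosed_NC hN hT2.out (NCT C kb L TL)
  haveI := hSU.fin
  haveI := hSU.gal
  haveI : CFF C M := P025H492.cff_of_finite (K := NCT C kb L TL)
  haveI : FiniteDimensional (RatFunc C) M := FiniteDimensional.trans (RatFunc C) (NCT C kb L TL) M
  obtain ⟨φ⟩ := exists_embedding (Z := NCT C kb N T2) hSU.solv hSU.unr hKC
  refine ⟨tL (RatFunc C) (F1r C c) (φ.restrictScalars (RatFunc C)) s0, ?_⟩
  rw [← map_pow, hs0, tL_tmul]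
  congr 1
  change φ (algebraMap (NCT C kb L TL) M (algebraMap L (NCT C kb L TL) hL)) = _
  rw [φ.commutes]
  exact P025H722.ncMap_N C L.val hL

end A21

section edges

variable {C kb N : Type u}
  [NontriviallyNormedField C] [IsUltrametricDist C] [CompleteSpace C] [IsAlgClosed C] [CharZero C]
  [Field kb] [IsAlgClosed kb] [CharZero kb] [Field N] [Algebra kb C] [Algebra kb N]
  [TrdegOne kb N]

omit [CharZero kb] [TrdegOne kb N] in
theorem exists_of_not_transcendental {h : N} (ht : ¬ Transcendental kb h) :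
    ∃ a : kb, algebraMap kb N a = h := by
  have h1 : IsAlgebraic kb h := by
    rw [Transcendental, not_not] at ht
    exact ht
  have h2 : IsIntegral kb h := h1.isIntegral
  exact minpoly.mem_range_of_degree_eq_one kb h
    (IsAlgClosed.degree_eq_one_of_irreducible kb (minpoly.irreducible h2))

omit [CharZero kb] [TrdegOne kb N] in
theorem transcendental_add_inv {h : N} (ht : Transcendental kb h) :
    Transcendental kb (h + h⁻¹) := by
  by_contra hc
  obtain ⟨a, ha⟩ := exists_of_not_transcendental hc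
  have hh : h ≠ 0 := by
    rintro rfl
    exact ht isAlgebraic_zero
  apply ht
  refine ⟨Polynomial.X ^ 2 - Polynomial.C a * Polynomial.X + 1, ?_, ?_⟩
  · intro h0
    have h1 := congrArg (fun P => Polynomial.coeff P 2) h0
    simp [Polynomial.coeff_X, Polynomial.coeff_one] at h1
  · rw [map_add, map_sub, map_pow, map_mul, Polynomial.aeval_X, Polynomial.aeval_C, map_one, ha]
    field_simp
    ring

theorem ord_of_add_inv {K : Type*} [Field K] [Algebra C K] [CFF C K] (P : Plk C K) {x : K}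
    (hx : x ≠ 0) (h : 0 ≤ ord P (x + x⁻¹)) : ord P x = 0 := by
  have hdv := P025H731.ord_dv P
  have hinv : ord P x⁻¹ = - ord P x := ord_inv P x
  rcases lt_trichotomy (ord P x) 0 with h1 | h1 | h1
  · exfalso
    obtain ⟨-, h2⟩ := hdv.eq_of_sub (x := x) (y := x + x⁻¹) (n := - ord P x) hx (by omega)
      (by rw [add_sub_cancel_left]; exact Or.inr hinv.ge)
    omega
  · exact h1
  · exfalso
    obtain ⟨-, h2⟩ := hdv.eq_of_sub (x := x⁻¹) (y := x + x⁻¹) (n := ord P x) (inv_ne_zero hx)
      (by omega) (by rw [add_sub_cancel_right]; exact Or.inr le_rfl)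
    omega

/-- **(A2.1)** for elements of `N` -/
theorem exists_root_N (hIII : StmtIII.{u, u} C) (hN : P025H833.KumMax kb N)
    (hbig : BigLevels kb N) {T : N} [Fact (Transcendental kb T)] (w : ET C kb N T)
    {q : ℕ} (hq : IsPrimePow q) (h : N) : ∃ y : KK w, y ^ q = nToKK w h := by
  classical
  by_cases ht : Transcendental kb h
  · have hh : h ≠ 0 := by
      rintro rfl
      exact ht isAlgebraic_zero
    haveI : Fact (Transcendental kb (h + h⁻¹)) := ⟨transcendental_add_inv ht⟩
    obtain ⟨s, hcff, hsub, hg⟩ := hbig {h}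
    have hhL : h ∈ IntermediateField.adjoin kb (s : Set N) :=
      IntermediateField.subset_adjoin _ _ (hsub (Finset.mem_singleton_self h))
    have hTL : h + h⁻¹ ∈ IntermediateField.adjoin kb (s : Set N) := add_mem hhL (inv_mem hhL)
    obtain ⟨s', hs'⟩ := exists_gens (kb := kb) s
    obtain ⟨r0, hr0⟩ := exists_F1r_root hIII hN (h + h⁻¹) h hh hq
      (IntermediateField.adjoin kb (s : Set N)) hg s' hs' hTL hhL (by
        intro P hP
        haveI : CFF C (NC C kb (IntermediateField.adjoin kb (s : Set N))) :=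
          P025H722.cff_NC C kb _
        have hx : algebraMap (IntermediateField.adjoin kb (s : Set N))
            (NC C kb (IntermediateField.adjoin kb (s : Set N))) ⟨h, hhL⟩ ≠ 0 := by
          rw [Ne, map_eq_zero]
          intro h0
          exact hh (congrArg Subtype.val h0)
        have h1 : algebraMap (IntermediateField.adjoin kb (s : Set N))
            (NC C kb (IntermediateField.adjoin kb (s : Set N))) ⟨h + h⁻¹, hTL⟩ =
            algebraMap (IntermediateField.adjoin kb (s : Set N))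
              (NC C kb (IntermediateField.adjoin kb (s : Set N))) ⟨h, hhL⟩ +
            (algebraMap (IntermediateField.adjoin kb (s : Set N))
              (NC C kb (IntermediateField.adjoin kb (s : Set N))) ⟨h, hhL⟩)⁻¹ := by
          rw [← map_inv₀, ← map_add]
          rfl
        rw [h1] at hP
        have h2 := ord_of_add_inv P hx hP
        exact (h2.symm ▸ dvd_zero _ : (q : ℤ) ∣ ord P _))
    obtain ⟨c, hc⟩ := NormedField.exists_lt_norm C (max r0 ‖nToKK w (h + h⁻¹)‖)
    have hc0 : c ≠ 0 := by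
      rintro rfl
      rw [norm_zero] at hc
      exact absurd (le_max_right r0 ‖nToKK w (h + h⁻¹)‖)
        (not_le.2 (hc.trans_le (norm_nonneg _)))
    obtain ⟨y, hy⟩ := hr0 (Units.mk0 c hc0) ((le_max_left _ _).trans hc.le)
    obtain ⟨z, hz⟩ := pow_of_tensor_r (κ := KK w) (ncToKK w (h + h⁻¹)) (ncToKK_C w (h + h⁻¹))
      (Units.mk0 c hc0) (by
        rw [ncToKK_X]
        exact (le_max_right _ _).trans hc.le) hy
    exact ⟨z, hz⟩
  · obtain ⟨a, rfl⟩ := exists_of_not_transcendental ht
    obtain ⟨b, hb⟩ := IsAlgClosed.exists_pow_nat_eq a (Nat.pos_of_ne_zero hq.ne_zero)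
    exact ⟨nToKK w (algebraMap kb N b), by rw [← map_pow, ← map_pow, hb]⟩

/-- **(A2.1)**: all elements of the residue field of an edge are `q`-th powers -/
theorem exists_root_edge (hIII : StmtIII.{u, u} C) (hN : P025H833.KumMax kb N)
    (hbig : BigLevels kb N) (hd : DenseRange (algebraMap kb C)) {T : N}
    [Fact (Transcendental kb T)] (w : ET C kb N T) {q : ℕ} (hq : IsPrimePow q) (x : KK w) :
    ∃ y : KK w, y ^ q = x := by
  by_cases hx : x = 0
  · exact ⟨0, by rw [zero_pow hq.ne_zero, hx]⟩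
  haveI : CharZero (F0 C) := charZero_of_injective_algebraMap (algebraMap C (F0 C)).injective
  have hqF : ((q : ℕ) : F0 C) ≠ 0 := Nat.cast_ne_zero.2 hq.ne_zero
  have hxn : 0 < ‖x‖ := norm_pos_iff.2 hx
  have hqn : 0 < ‖(q : F0 C)‖ := norm_pos_iff.2 hqF
  have hq1 : ‖(q : F0 C)‖ ≤ 1 := IsUltrametricDist.norm_natCast_le_one (F0 C) q
  obtain ⟨n, hn⟩ := exists_norm_sub_lt w hd x (ε := ‖x‖ * ‖(q : F0 C)‖ ^ 2) (by positivity)
  have hlt : ‖x - nToKK w n‖ < ‖x‖ := hn.trans_le (by
    have : ‖(q : F0 C)‖ ^ 2 ≤ 1 := pow_le_one₀ (norm_nonneg _) hq1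
    nlinarith)
  have hfn : ‖nToKK w n‖ = ‖x‖ := by
    apply le_antisymm
    · have h2 := IsUltrametricDist.norm_add_le_max x (-(x - nToKK w n))
      have h1 : x + -(x - nToKK w n) = nToKK w n := by ring
      rw [h1, norm_neg, max_eq_left hlt.le] at h2
      exact h2
    · have h2 := IsUltrametricDist.norm_add_le_max (x - nToKK w n) (nToKK w n)
      have h1 : x - nToKK w n + nToKK w n = x := by ring
      rw [h1] at h2
      rcases le_max_iff.1 h2 with h3 | h3
      · exact absurd h3 (not_le.2 hlt)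
      · exact h3
  have hfn0 : nToKK w n ≠ 0 := by
    rw [← norm_pos_iff, hfn]
    exact hxn
  have hu : ‖x / nToKK w n - 1‖ < ‖(q : F0 C)‖ ^ 2 := by
    have h1 : x / nToKK w n - 1 = (x - nToKK w n) / nToKK w n := by
      rw [sub_div, div_self hfn0]
    rw [h1, norm_div, hfn, div_lt_iff₀ hxn, mul_comm]
    exact hn
  obtain ⟨y, hy⟩ := P025H833.exists_pow_of_spectral (F0 := F0 C) (κ := KK w) hqF hu
  obtain ⟨z, hz⟩ := exists_root_N hIII hN hbig w hq n
  exact ⟨y * z, by rw [mul_pow, hy, hz, div_mul_cancel₀ _ hfn0]⟩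

/-- `N` is closed: `P025H851.Uc` for `NCT` -/
theorem uc_NCT' (hN : P025H833.KumMax kb N) (T : N) [Fact (Transcendental kb T)] {n : ℕ}
    (hn : n ≠ 0) : Uc C (NCT C kb N T) n :=
  P025H833.uc_NCT hN T hn

/-- `TopClosed` for `NCT` -/
theorem topClosed (hN : P025H833.KumMax kb N) (T : N) [Fact (Transcendental kb T)] {n : ℕ}
    (hn : n ≠ 0) : TopClosed (RatFunc C) (F1 C) (F2 C) (NCT C kb N T) n := by
  rintro x hx ⟨a, ha⟩ ⟨b, hb⟩
  exact root_of_sides hn (uc_NCT' hN T hn) hx ha.symm hb.symm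

theorem gluePow (hN : P025H833.KumMax kb N) (T : N) [Fact (Transcendental kb T)] {n : ℕ}
    (hn : n ≠ 0) : P025H109.GluePow (RatFunc C) (F1 C) (F2 C) (NCT C kb N T)
      (P025H109.a1Tens C (NCT C kb N T)) n := by
  intro z a s t hz ha hb h1 h2
  exact glue_root hn (uc_NCT' hN T hn) (P025H109.a1F1 C) (fun r => r.2) hz (a := (a : _))
    (b := ((a⁻¹ : _) : _)) a.mul_inv ha hb h1 h2

/-- **(A2.2)**: units of the ring of elements integral over the functions on the closed disc, at a
`V`-vertex, are `q`-th powers -/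
theorem unitPow (hIII : StmtIII.{u, u} C) (hN : P025H833.KumMax kb N)
    (hbig : BigLevels kb N) (hd : DenseRange (algebraMap kb C)) {T : N}
    [Fact (Transcendental kb T)] (v : VT C kb N T) {q : ℕ} (hq : IsPrimePow q) :
    P025H109.UnitPow q v :=
  P025H109.unitPow_of_glue (P025H720.patch C) (Nat.pos_of_ne_zero hq.ne_zero)
    (fun w x => exists_root_edge hIII hN hbig hd w hq x) (gluePow hN T hq.ne_zero) v

/-- **(A2.2), global form** -/
theorem root_of_integral_unit (hIII : StmtIII.{u, u} C) (hN : P025H833.KumMax kb N)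
    (hbig : BigLevels kb N) (hd : DenseRange (algebraMap kb C)) {T : N}
    [Fact (Transcendental kb T)] {q : ℕ} (hq : IsPrimePow q)
    (a : (F1 C ⊗[RatFunc C] NCT C kb N T)ˣ)
    (ha : (P025H109.a1Tens C (NCT C kb N T)).IsIntegralElem (a : F1 C ⊗[RatFunc C] NCT C kb N T))
    (hb : (P025H109.a1Tens C (NCT C kb N T)).IsIntegralElem
      ((a⁻¹ : (F1 C ⊗[RatFunc C] NCT C kb N T)ˣ) : F1 C ⊗[RatFunc C] NCT C kb N T)) :
    ∃ y : (F1 C ⊗[RatFunc C] NCT C kb N T)ˣ, (y : F1 C ⊗[RatFunc C] NCT C kb N T) ^ q = a := by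
  refine P025H359.root_on_V (P025H720.patch C) (Nat.pos_of_ne_zero hq.ne_zero) a (fun w => ?_)
    (fun z s t hz h1 h2 => gluePow hN T hq.ne_zero z a s t hz ha hb h1 h2)
  obtain ⟨y, hy⟩ := exists_root_edge hIII hN hbig hd w hq
    (toKK w (bc (RatFunc C) (F1 C) (F0 C) (NCT C kb N T) a))
  obtain ⟨y, rfl⟩ := toKK_surjective w y
  refine ⟨y, ?_⟩
  rw [← toKK_eq_zero_iff, map_sub, map_pow, hy, sub_self]

end edges

end P025H851
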